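import Vale.Agent.P014Y.F.Defs
import Vale.Agent.P004F.Pt.Kd
import Vale.Agent.P014Y.F.En.Noi

/-! # P014Y: basic facts on `Crv` and `Fld` (port of P004F; helper15) -/

set_option linter.all false

open NumberField Matrix
open scoped NumberTheorySymbols

noncomputable section

namespace Vale.Agent.P014Y.F

open Vale.Agent.P022 (Qb GQ GK IsConj IsFrob)
open P004K P004K.Rc P004R P014U
open Vale.Agent.P027M.S (Inert)
open Vale.Agent.P022D.W (dec)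
open Vale.Agent.P022E.GW (Ov Fb)
open P004S (nu kn)
open X4S (Rep Tr)
open X4F (En.Big)

variable [Pp]

namespace Crv

variable (e : Crv) {l : ℕ} {P : Ideal (𝓞 Qb)} {g : GQ}

theorem ne_two (h : l ∉ e.S) : l ≠ 2 := fun k => h (k ▸ e.two)

theorem ne_pp (h : l ∉ e.S) : l ≠ pp := fun k => h (k ▸ e.pm)

theorem rep : Rep e.rp e.S.toFinset :=
  X4F.En.rep_ok _ (List.mem_toFinset.2 e.pm) fun l hl h d =>
    have h' := mt List.mem_toFinset.2 h
    have p := Nat.prime_iff_prime_int.1 hl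
    (p.dvd_or_dvd d).elim (fun d => (p.dvd_or_dvd d).elim
      (fun d => e.ne_two h' ((Nat.prime_dvd_prime_iff_eq hl Nat.prime_two).1 (by exact_mod_cast d)))
      fun d => e.ne_pp h' ((Nat.prime_dvd_prime_iff_eq hl pp_prime).1 (by exact_mod_cast d)))
      (e.bad l hl h').2.1

theorem mt_rp (g : GQ) : X4S.mt e.rp g = (e.r g).map (↑) := rfl

theorem tr_dvd {n : ℕ} : Tr e.rp n g ↔ ∀ i i', (pp : ℤ_[pp]) ^ n ∣ (e.r g - 1) i i' := Pg.tr_iff _

theorem tr_one : Tr e.rp 1 g ↔ (e.r g).map PadicInt.toZMod = 1 := by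
  rw [e.tr_dvd, ← sub_eq_zero, ← map_one (PadicInt.toZMod (p := pp)).mapMatrix, ← Matrix.ext_iff]
  refine forall₂_congr fun i j => ?_
  rw [pow_one, ← Ideal.mem_span_singleton, ← PadicInt.maximalIdeal_eq_span_p, ← PadicInt.ker_toZMod]
  exact Iff.of_eq (congrArg (· = 0) (congrFun₂ (map_sub PadicInt.toZMod.mapMatrix (e.r g) 1) i j))

theorem det_in (o : Ov l P) (h : l ≠ pp) (hg : Inert P g) : (e.r g).det = 1 := En.det_inert _ o h hg

theorem det_fb (o : Ov l P) (h : l ≠ pp) (f : Fb l P g) : (e.r g).det = l := En.det_fb _ o h f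

theorem r_inert (o : Ov l P) (h : l ∉ e.S) (hg : Inert P g) : e.r g = 1 :=
  Matrix.ext fun i j => Subtype.ext ((congrFun₂ (e.rep.mt_inert o (mt List.mem_toFinset.1 h) hg)
    i j).trans (by simp only [one_apply]; split_ifs <;> rfl))

theorem tr_fb (o : Ov l P) (h : l ∉ e.S) (f : Fb l P g) :
    (X4S.mt e.rp g).trace = e.a l ∧ X4S.ep e.rp g = l :=
  ⟨by
    have := congrArg (fun x : ℤ_[pp] => (x : ℚ_[pp])) ((e.bad l o.1 h).2.2 g ⟨P, o.2.1, o.2.2, f⟩)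
    simp only [trace_fin_two, PadicInt.coe_add, PadicInt.coe_intCast] at this
    rw [trace_fin_two]; exact this,
  (e.rep.frob l o.1 (mt List.mem_toFinset.1 h) g ⟨P, o.2.1, o.2.2, f⟩).1⟩

end Crv

namespace Fld

variable {e : Crv} (b : Fld e) {l : ℕ} {P : Ideal (𝓞 Qb)} {g : GQ}

theorem pos : 0 < b.δ' := Nat.pos_of_ne_zero b.adm.sq.ne_zero

theorem jθ : b.j b.θ ^ 2 = ((-(b.δ' : ℤ) : ℤ) : Qb) := by
  simpa using congrArg (fun x : 𝓞 b.K => b.j x) b.th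

theorem kd : Kd b.j b.δ' where
  iq := b.iq
  upm := b.upm
  sq := b.adm.sq
  m8 := b.adm.m8
  rt := ⟨b.θ, by simpa using congrArg (fun x : 𝓞 b.K => (x : b.K)) b.th⟩
  gk g := by
    rw [P004S.nu_eq_zero b.jθ]
    refine ⟨fun h => h _, fun h => by_contra fun k => ?_⟩
    obtain ⟨ω, s, q⟩ := P004F.Pt.ex_q b.j b.iq
    have h1 := P004F.Pt.cj_out q k b.θ
    rw [Xt.s_th q b.pos b.th, h] at h1
    have h2 := b.jθ
    rw [self_eq_neg.1 (h1.trans (by simp))] at h2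
    exact b.pos.ne' (by simpa using h2.symm)

theorem Γ_eq : b.Γ = kn (-(b.δ' : ℤ)) := Subgroup.ext b.kd.gk

theorem Γ_open : IsOpen (b.Γ : Set GQ) := b.Γ_eq ▸ P004S.kn_open _

theorem Γ_conj (hg : g ∈ b.Γ) (t : GQ) : t * g * t⁻¹ ∈ b.Γ :=
  (b.kd.gk _).2 ((P004S.nu_conj _ t g).trans ((b.kd.gk g).1 hg))

theorem c_out : b.c ∉ b.Γ := fun a => one_ne_zero
  ((P004S.nu_neg_conj (neg_neg_of_pos (Int.natCast_pos.2 b.pos)) b.cc).symm.trans ((b.kd.gk _).1 a))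

theorem mul_out {h : GQ} (hg : g ∉ b.Γ) (hh : h ∉ b.Γ) : g * h ∈ b.Γ := by
  rw [b.kd.gk] at *
  rw [P004S.nu_mul, (P004S.z2 _).resolve_left hg, (P004S.z2 _).resolve_left hh]; rfl

theorem inert_mem (o : Ov l P) (h2 : l ≠ 2) (hd : ¬ l ∣ b.δ') (hg : Inert P g) : g ∈ b.Γ :=
  (b.kd.gk g).2 (P004S.nu_inert o h2 (fun d => hd (Int.natCast_dvd_natCast.1 (dvd_neg.1 d))) hg)

theorem out_S (hl : l.Prime) (hd : l ∣ b.δ') : l ∉ e.S := fun m => by
  have h2 : l ≠ 2 := by have := b.adm.m8; rintro rfl; omega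
  exact Mu.nd_of hl (.inr (b.adm.spl l m h2)) (dvd_neg.2 (Int.natCast_dvd_natCast.2 hd))

/-- the image of `Γ` is the whole image -/
theorem ex_ker : ∃ τ ∉ b.Γ, e.r τ = 1 := by
  obtain ⟨l, hl, d⟩ := Nat.exists_prime_and_dvd (n := b.δ') (by have := b.adm.m8; omega)
  obtain ⟨P, o⟩ := Mu.ex_pl hl
  obtain ⟨τ, t⟩ := P022E.GW.Tg.ex_gn' o
  refine ⟨τ, fun m => one_ne_zero ((P004S.nu_tau o (e.ne_two (b.out_S hl d))
    (Int.squarefree_natAbs.1 (by simpa using b.adm.sq))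
      (dvd_neg.2 (Int.natCast_dvd_natCast.2 d)) t).symm.trans ((b.kd.gk τ).1 m)),
    e.r_inert o (b.out_S hl d) t.1⟩

theorem onto (g : GQ) : ∃ x ∈ b.Γ, e.r x = e.r g := by
  obtain ⟨τ, t, k⟩ := b.ex_ker
  by_cases m : g ∈ b.Γ
  · exact ⟨g, m, rfl⟩
  · exact ⟨g * τ, b.mul_out m t, by rw [map_mul, k, mul_one]⟩

/-- a big element which fixes all roots of order a power of `pp` -/
theorem ex_big : ∃ u ∈ b.Γ, En.Big e.rp u ∧
    ∀ (m : ℕ) (y : Qb), y ^ pp ^ m = 1 ∨ y ^ pp ^ m ∈ b.j '' {0}ᶜ → u y = y := by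
  obtain ⟨k, hk⟩ := X4F.En.big (hq e.par.disc)
  refine En.Big.kum (r := e.rp) hk e.rep (X4S.cyc_ep e.rep) b.Γ_open (fun w hw => ?_) _ ?_
  · obtain ⟨g, h⟩ := e.rep.irr w hw
    obtain ⟨x, m, k⟩ := b.onto g
    exact ⟨x, m, by rw [e.mt_rp, k]; exact h⟩
  · rintro _ ⟨a, h, rfl⟩
    exact ⟨(map_ne_zero _).2 h, fun g hg => hg a⟩

end Fld

end Vale.Agent.P014Y.F
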