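import Vale.Agent.P004F.Pt.Dh
import Vale.Agent.P014Y.F.Pt.Kd

/-! # P014Y: additive ring class characters modulo powers of the odd prime (helper31) -/

set_option linter.all false

noncomputable section

namespace Vale.Agent.P014Y.F

open Vale.Agent.P022 (GQ)
open P014U

export Vale.Agent.P004F.Pt (Dh cj_sq cj_inv)

variable [Pp]

theorem Fld.Ad.dh {e : Crv} {b : Fld e} {n c i : ℕ} {χ : GQ → ℕ} (a : b.Ad n c χ) (h : i ≤ n) :
    Dh b.j c fun g => (χ g : ZMod (pp ^ i)) :=
  ⟨fun g hg k hk => by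
    rw [← Nat.cast_add, ZMod.natCast_eq_natCast_iff]
    exact (a.add g hg k hk).of_dvd (pow_dvd_pow pp h), fun g hg =>
    (ZMod.natCast_eq_zero_iff _ _).2 ((pow_dvd_pow pp h).trans (a.ker g hg))⟩

/-- two is invertible -/
theorem half_zmod {n : ℕ} {x : ZMod (pp ^ n)} (h : x + x = 0) : x = 0 :=
  (unit_two' n).mul_right_eq_zero.1 (by rw [two_mul, h])

end Vale.Agent.P014Y.F
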