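import Vale.Agent.P004F.Pt.Pert
import Vale.Agent.P014U.Gn

/-!
# P014Y, frame at the odd prime: one more prime, with a character of prescribed values (helper31)
-/

set_option autoImplicit false
set_option linter.all false

open NumberField IsDedekindDomain
open scoped NumberTheorySymbols nonZeroDivisors

noncomputable section

namespace Vale.Agent.P014Y.F.Pt

open Vale.Agent.P022 (Qb GQ GK below IsConj)
open P004K P004K.Rc P004R P004R.Xt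
open Vale.Agent.P027M.S (Inert)
open Vale.Agent.P022D.W (dec)
open Vale.Agent.P022E.GW (Ov Fb)
open Vale.Agent.P004S (nu ov_dvd UnS)
open Vale.Agent.P014U
open Vale.Agent.P004F.Pt (km_comp fx_mul fx_pow km_pow fix_in fx_in mod_one fx_inv fx_cj km_cj km_in
  ex_dat cheb typ' ex_q cj_out)

variable [Pp]

instance nz_pow (n : ℕ) : NeZero (pp ^ n) := ⟨pow_ne_zero _ pp_ne⟩

/-- good elements in every coset of the group which fixes all roots of order a power of `pp` -/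
structure Nz {K : Type} [Field K] (j : K →+* Qb) (U : Subgroup GQ) (G : GQ → Prop) (N : ℕ) :
    Prop where
  opn : IsOpen (U : Set GQ)
  stb : ∀ g, ∀ u ∈ U, G g → G (g * u)
  ex : ∃ h ∈ GK j, (∀ n, Fx (j '' {0}ᶜ) (pp ^ n) h) ∧
    ∀ g, (∀ i, Fx {1} (pp ^ i) g) → ∃ k : ℕ, G (g ^ N * h ^ k)

variable {K : Type} [Field K] [NumberField K] {j : K →+* Qb} {ω θ : 𝓞 K} {s : 𝓞 K →+* 𝓞 K}
  {δ l n : ℕ} {P : Ideal (𝓞 Qb)} {g : GQ} {ζ : Qb}

theorem nd_pp (o : Ov l P) (h : l ≠ pp) (n : ℕ) : ¬ l ∣ pp ^ n := fun d =>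
  h ((Nat.prime_dvd_prime_iff_eq o.1 pp_prime).1 (o.1.dvd_of_dvd_pow d))

theorem inert_mu (o : Ov l P) (h : l ≠ pp) (i : Inert P g) (n : ℕ) : Fx {1} (pp ^ n) g :=
  fx_in o i (nd_pp o h n)

theorem one_lt_pow' (n : ℕ) : 1 < pp ^ (n + 1) := Nat.one_lt_pow n.succ_ne_zero one_lt

theorem mod_of {a b : ℕ} (h : l % pp ^ b = 1) (e : a + 1 ≤ b) : l % pp ^ (a + 1) = 1 := by
  rw [← Nat.mod_mod_of_dvd _ (pow_dvd_pow pp e), h, Nat.mod_eq_of_lt (one_lt_pow' a)]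

theorem ne_two_of (h : l % pp ^ (n + 1) = 1) : l ≠ 2 := fun e => by
  have : pp ≤ pp ^ (n + 1) := Nat.le_self_pow n.succ_ne_zero _
  have := two_lt
  rw [e, Nat.mod_eq_of_lt (by omega)] at h
  omega

/-- a symbol is a unit if a root of order `pp` is moved -/
theorem km_unit {u z : Qb} {k : ZMod (pp ^ (n + 1))} (hζ : IsPrimitiveRoot ζ (pp ^ (n + 1)))
    (f : Fx {1} (pp ^ (n + 1)) g) (u0 : u ≠ 0) (a : Km ζ g u k) (hz : z ^ pp = u) (ne : g z ≠ z) :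
    IsUnit k := by
  rw [← ZMod.natCast_zmod_val k, ZMod.isUnit_iff_coprime]
  refine ((Nat.Prime.coprime_iff_not_dvd pp_prime).2 fun ⟨c, e⟩ => ne ?_).symm.pow_right _
  obtain ⟨y, hy⟩ := rt (pp ^ (n + 1)) u
  have w0 : y ^ pp ^ n ≠ 0 := pow_ne_zero _ (rt_ne hy u0)
  have e1 : g (y ^ pp ^ n) = y ^ pp ^ n := by
    rw [map_pow, a y hy, mul_pow, ← pow_mul, e, mul_right_comm, ← pow_succ', pow_mul,
      hζ.pow_eq_one, one_pow, one_mul]
  have e2 := f (z / y ^ pp ^ n) (by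
    rw [pow_succ', pow_mul, div_pow, hz, ← pow_mul, ← pow_succ, hy, div_self u0, one_pow]; rfl)
  rw [map_div₀, e1] at e2
  exact (div_left_inj' w0).1 e2

theorem nd_del (kd : Kd j δ) (o : Ov l P) (hd : dec P ≤ GK j) : ¬ (l : ℤ) ∣ δ := fun a => by
  by_cases l2 : l = 2
  · have := kd.m8
    subst l2
    omega
  obtain ⟨τ, hτ⟩ := P022E.GW.Tg.ex_gn' o
  have := P004S.nu_tau o l2 (d := -δ) (Int.squarefree_natAbs.1 (by simpa using kd.sq))
    (dvd_neg.2 a) hτ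
  rw [(kd.gk τ).1 (hd (P022D.W.inP_le_dec hτ.1))] at this
  exact zero_ne_one this

/-- a number of norm `l x` and its conjugate are not both in the prime -/
theorem not_both (kd : Kd j δ) (q : Qd (JJ j) ω s) (hθ : θ ^ 2 = -(δ : 𝓞 K)) (o : Ov l P)
    (hd : dec P ≤ GK j) {a : 𝓞 K} {x : ℤ} (e : a * s a = (l * x : ℤ)) (hx : ¬ (l : ℤ) ∣ x)
    (h1 : iz j a ∈ P) (h2 : iz j (s a) ∈ P) : False := by
  have d0 := Nat.pos_of_ne_zero kd.sq.ne_zero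
  have sθ := s_th q d0 hθ
  have lp := Nat.prime_iff_prime_int.1 o.1
  obtain ⟨m, hm⟩ : ∃ m : ℤ, (δ : ℤ) + 1 = 4 * m := ⟨(δ + 1) / 4, by have := kd.m8; omega⟩
  have hθ' : (θ : K) ^ 2 = -(δ : K) := by simpa using congrArg (fun x : 𝓞 K => (x : K)) hθ
  have hm' : (δ : K) + 1 = 4 * m := by exact_mod_cast congrArg (Int.cast : ℤ → K) hm
  have int : IsIntegral ℤ ((1 + (θ : K)) / 2) :=
    ⟨Polynomial.X ^ 2 - Polynomial.X + Polynomial.C m, by monicity!, by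
      rw [Polynomial.eval₂_add, Polynomial.eval₂_sub, Polynomial.eval₂_pow,
        Polynomial.eval₂_X, Polynomial.eval₂_C, eq_intCast]
      linear_combination hθ' / 4 - hm' / 4⟩
  obtain ⟨η, e2⟩ : ∃ η : 𝓞 K, 2 * η = 1 + θ := ⟨⟨_, int⟩, RingOfIntegers.ext (by
    show (2 : K) * ((1 + (θ : K)) / 2) = 1 + θ
    ring)⟩
  have e3 := congrArg s e2
  rw [map_mul, map_add, map_one, sθ, map_ofNat] at e3
  obtain ⟨u, v, rfl⟩ := q.sp a
  obtain ⟨u', v', rfl⟩ := q.sp η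
  simp only [map_add, map_mul, map_intCast] at e3
  have e4 : θ = v' * (ω - s ω) := mul_left_cancel₀ (two_ne_zero : (2 : 𝓞 K) ≠ 0)
    (by linear_combination e3 - e2)
  have m1 : iz j ((-(v ^ 2 * δ) : ℤ) : 𝓞 K) ∈ P := by
    have := P.pow_mem_of_mem (P.mul_mem_left (iz j v') (P.sub_mem h1 h2)) 2 two_pos
    rw [← map_sub, ← map_mul, ← map_pow] at this
    convert this using 2
    simp only [map_add, map_mul, map_intCast]
    push_cast
    rw [e4] at hθ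
    linear_combination -(v : 𝓞 K) ^ 2 * hθ
  rw [map_intCast] at m1
  obtain ⟨v, rfl⟩ := lp.dvd_of_dvd_pow ((lp.dvd_or_dvd (dvd_neg.1 (ov_dvd o m1))).resolve_right
    (nd_del kd o hd))
  have m2 : ((u : ℤ) : 𝓞 Qb) ∈ P := by
    rw [map_add, map_mul, map_intCast, map_intCast, Int.cast_mul, Int.cast_natCast, mul_assoc] at h1
    exact (Ideal.add_mem_iff_left _ (P.mul_mem_right _ o.2.2)).1 h1
  obtain ⟨u, rfl⟩ := ov_dvd o m2
  refine hx (q.dvd_int ⟨(u + v * ω) * (u + v * s ω), mul_left_cancel₀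
    (Nat.cast_ne_zero.2 o.1.ne_zero : (l : 𝓞 K) ≠ 0) ?_⟩)
  simp only [map_add, map_mul, map_intCast] at e
  push_cast at e ⊢
  linear_combination -e

/-- an element of the inertia group with a prescribed symbol -/
theorem ex_tau (kd : Kd j δ) (q : Qd (JJ j) ω s) (hθ : θ ^ 2 = -(δ : 𝓞 K))
    (hζ : IsPrimitiveRoot ζ (pp ^ (n + 1))) (o : Ov l P)
    (l2 : l ≠ pp) (hd : dec P ≤ GK j) {a : 𝓞 K} {x : ℤ} (e : a * s a = (l * x : ℤ))
    (hx : ¬ (l : ℤ) ∣ x) (b : ZMod (pp ^ (n + 1))) :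
    ∃ τ, Inert P τ ∧ Km ζ τ (j (qu s a)) b := by
  obtain ⟨τ, t⟩ := ex_gn o l2
  have l0 : (l : ℤ) ≠ 0 := Int.natCast_ne_zero.2 o.1.ne_zero
  have x0 : x ≠ 0 := fun k => hx (k ▸ dvd_zero _)
  have a0 : a ≠ 0 := fun k => mul_ne_zero l0 x0 (by rw [k, zero_mul] at e; exact_mod_cast e.symm)
  have m := hd (P004S.inert_dec t.1)
  have f := inert_mu o l2 t.1 (n + 1)
  obtain ⟨k, hk⟩ := km_ex hζ f (qu_ne q a0) (m _)
  have := Fact.mk one_lt
  have r1 : τ (P022K.G2.rt pp l) = P022K.G2.zt pp * P022K.G2.rt pp l := by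
    rw [P022K.G2.ka_spec (map_natCast τ l), t.2, ZMod.val_one, pow_one]
  have z1 := (P022K.G2.zt_prim pp).ne_one one_lt
  have r2 := P022K.G2.rt_pow pp (l : Qb)
  have l1 : (l : Qb) ≠ 0 := Nat.cast_ne_zero.2 o.1.ne_zero
  have x1 : (x : Qb) ≠ 0 := Int.cast_ne_zero.2 x0
  have r0 : P022K.G2.rt pp (l : Qb) ≠ 0 := fun c => l1 (by rw [← r2, c, zero_pow pp_ne])
  have a1 : j a ≠ 0 := (map_ne_zero j).2 fun c => a0 (RingOfIntegers.ext c)
  have a2 : j (s a) ≠ 0 := (map_ne_zero j).2 (s_ne q a0)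
  have e' : j a * j (s a) = l * x := by simpa using congrArg (fun y : 𝓞 K => j y) e
  have eq : j (qu s a) = j a / j (s a) := map_div₀ j _ _
  have xP : ((x : ℤ) : 𝓞 Qb) ∉ P := fun c => hx (ov_dvd o c)
  have nd : ¬ l ∣ pp := by simpa using nd_pp o l2 1
  have := NeZero.mk pp_ne
  have un : IsUnit k := by
    by_cases c : iz j (s a) ∈ P
    · have c' : iz j a ^ 2 ∉ P := fun d => not_both kd q hθ o hd e hx (o.2.1.mem_of_pow_mem _ d) c
      obtain ⟨w, hw⟩ := rt pp (j a ^ 2 / x)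
      have w1 := fix_in o t.1 nd (a := iz j a ^ 2) (b := x) (y := w)
        (by rw [RingOfIntegers.coe_eq_algebraMap, map_pow, map_pow]; exact congrArg (· ^ 2) (m _))
        (by simp) c' xP (by simpa using hw)
      have w0 := rt_ne hw (div_ne_zero (pow_ne_zero 2 a1) x1)
      refine km_unit hζ f (qu_ne q a0) hk (z := w / P022K.G2.rt pp l) ?_ fun d => z1 ?_
      · rw [div_pow, hw, r2, eq, div_div, div_eq_div_iff (mul_ne_zero x1 l1) a2]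
        linear_combination j a * e'
      · rw [map_div₀, w1, r1, div_eq_div_iff (r1 ▸ (map_ne_zero τ).2 r0) r0] at d
        exact mul_right_cancel₀ r0 ((mul_left_cancel₀ w0 d).symm.trans (one_mul _).symm)
    · have c' : iz j (s a) ^ 2 ∉ P := fun d => c (o.2.1.mem_of_pow_mem _ d)
      obtain ⟨w, hw⟩ := rt pp (x / j (s a) ^ 2)
      have w1 := fix_in o t.1 nd (a := x) (b := iz j (s a) ^ 2) (y := w) (by simp)
        (by rw [RingOfIntegers.coe_eq_algebraMap, map_pow, map_pow]; exact congrArg (· ^ 2) (m _))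
        xP c' (by simpa using hw)
      have w0 := rt_ne hw (div_ne_zero x1 (pow_ne_zero 2 a2))
      refine km_unit hζ f (qu_ne q a0) hk (z := P022K.G2.rt pp l * w) ?_ fun d => z1 ?_
      · rw [mul_pow, hw, r2, eq, mul_div_assoc', div_eq_div_iff (pow_ne_zero 2 a2) a2]
        linear_combination -j (s a) * e'
      · rw [map_mul, w1, r1] at d
        exact mul_right_cancel₀ r0 ((mul_right_cancel₀ w0 d).trans (one_mul _).symm)
  obtain ⟨u, hu⟩ := un.exists_left_inv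
  refine ⟨τ ^ (b * u).val, (P022.H443.inP P).pow_mem t.1 _, ?_⟩
  have := km_pow hζ f hk (b * u).val
  rwa [ZMod.natCast_zmod_val, mul_assoc, hu, mul_one] at this

/-- prescribed symbols at finitely many primes -/
theorem ex_g (kd : Kd j δ) (q : Qd (JJ j) ω s) (hθ : θ ^ 2 = -(δ : 𝓞 K))
    (hζ : IsPrimitiveRoot ζ (pp ^ (n + 1)))
    {P : ℕ → Ideal (𝓞 Qb)} {β : ℕ → 𝓞 K} {x : ℕ → ℤ} (b : ℕ → ZMod (pp ^ (n + 1)))
    (S : Finset ℕ) (h : ∀ p ∈ S, Ov p (P p) ∧ p ≠ pp ∧ dec (P p) ≤ GK j ∧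
      β p * s (β p) = (p * x p : ℤ) ∧ ∀ l ∈ S, ¬ (l : ℤ) ∣ x p) :
    ∃ g ∈ GK j, (∀ i, Fx {1} (pp ^ i) g) ∧ (∀ (a : 𝓞 K) (y : ℤ), a * s a = y →
      (∀ l ∈ S, ¬ (l : ℤ) ∣ y) → Km ζ g (j (qu s a)) (0 : ZMod (pp ^ (n + 1)))) ∧
      ∀ p ∈ S, Km ζ g (j (qu s (β p))) (b p) := by
  induction S using Finset.induction_on with
  | empty => exact ⟨1, one_mem _, fun _ _ _ => rfl, fun _ _ _ _ => km_zero fun _ _ => rfl, by simp⟩
  | insert p S hp ih =>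
    obtain ⟨g, g1, g2, g3, g4⟩ := ih fun l m =>
      let ⟨a, b, c, d, e⟩ := h l (Finset.mem_insert_of_mem m)
      ⟨a, b, c, d, fun l' m' => e l' (Finset.mem_insert_of_mem m')⟩
    obtain ⟨o, p2, hd, e, nd⟩ := h p (Finset.mem_insert_self _ _)
    obtain ⟨τ, t, k⟩ := ex_tau kd q hθ hζ o p2 hd e (nd p (Finset.mem_insert_self _ _)) (b p)
    have m := hd (P004S.inert_dec t)
    have f := g2 (n + 1)
    have hN := nd_pp o p2 (n + 1)
    have nd2 : ∀ l ∈ insert p S, ∀ l' ∈ insert p S, l ≠ l' → ¬ (l : ℤ) ∣ l' * x l' :=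
      fun l a l' a' ne d => ((Nat.prime_iff_prime_int.1 (h l a).1.1).dvd_or_dvd d).elim
        (fun d => ne ((Nat.prime_dvd_prime_iff_eq (h l a).1.1 (h l' a').1.1).1
          (Int.natCast_dvd_natCast.1 d))) ((h l' a').2.2.2.2 l a)
    refine ⟨g * τ, mul_mem g1 m, fun i => fx_mul (g2 i) (inert_mu o p2 t i),
      fun a y e1 e2 => ?_, fun l hl => ?_⟩
    · simpa using km_comp hζ f (g3 a y e1 fun l m => e2 l (Finset.mem_insert_of_mem m))
        (km_in o t m hN e1 (e2 p (Finset.mem_insert_self _ _)))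
    rcases Finset.mem_insert.1 hl with rfl | a
    · simpa using km_comp hζ f (g3 _ _ e fun l' m' => nd2 l' (Finset.mem_insert_of_mem m') l hl
        fun e => hp (e ▸ m')) k
    · simpa using km_comp hζ f (g4 l a) (km_in o t m hN (h l hl).2.2.2.1
        (nd2 p (Finset.mem_insert_self _ _) l hl fun e => hp (e ▸ a)))

/-- the properties of the symbol -/
structure Lm (s : 𝓞 K →+* 𝓞 K) (c : ℕ) {N : ℕ} (lam : 𝓞 K → ZMod N) : Prop where
  add : ∀ a b, a ≠ 0 → b ≠ 0 → lam (a * b) = lam a + lam b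
  neg : ∀ a, a ≠ 0 → lam (-a) = lam a
  rc : ∀ (k : ℤ) (a : 𝓞 K), (k : 𝓞 K) + c * a ≠ 0 → IsCoprime k (c : ℤ) → lam (k + c * a) = 0

/-- the symbol of one Frobenius element -/
theorem lam1 {N : ℕ} [NeZero N] (q : Qd (JJ j) ω s) (hζ : IsPrimitiveRoot ζ N) (o : Ov l P)
    (hg : g ∈ GK j) (f : Fb l P g) (hl : l % N = 1) :
    ∃ lam : 𝓞 K → ZMod N, Lm s l lam ∧ ∀ a ≠ 0, Km ζ g (j (qu s a)) (lam a) := by
  have h1 := fx_one o f hl
  have ex (a : 𝓞 K) : ∃ x : ZMod N, a ≠ 0 → Km ζ g (j (qu s a)) x := by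
    by_cases a0 : a = 0
    · exact ⟨0, fun e => absurd a0 e⟩
    · exact (km_ex hζ h1 (qu_ne q a0) (hg _)).imp fun _ e _ => e
  choose lam hm using ex
  have nd {x : ℤ} (e : IsCoprime x (l : ℤ)) (d : (l : ℤ) ∣ x) : False :=
    (Nat.prime_iff_prime_int.1 o.1).not_unit (e.isUnit_of_dvd' d dvd_rfl)
  refine ⟨lam, ⟨fun a b a0 b0 => ?_, fun a a0 => ?_, fun x a a0 e => ?_⟩, hm⟩
  · refine km_uq hζ (qu_ne q (mul_ne_zero a0 b0)) (hm _ (mul_ne_zero a0 b0)) ?_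
    have := km_mul hζ h1 (qu_ne q a0) (qu_ne q b0) (hm a a0) (hm b b0)
    rwa [← map_mul, show qu s a * qu s b = qu s (a * b) by simp [qu, div_mul_div_comm]] at this
  · refine km_uq hζ (qu_ne q a0) ?_ (hm a a0)
    have := hm _ (neg_ne_zero.2 a0)
    rwa [show qu s (-a) = qu s a by simp [qu, neg_div_neg_eq]] at this
  · refine km_uq hζ (qu_ne q a0) (hm _ a0) (km_zero fun y hy => ?_)
    have m (b : 𝓞 K) : iz j (l * b) ∈ P := by
      rw [map_mul, map_natCast]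
      exact Ideal.mul_mem_right _ _ o.2.2
    refine fix_quo o f hl (a := iz j _) (b := iz j (s _)) (hg _) (hg _)
      (fun b => nd e (ov_dvd o ?_)) ?_ (hy.trans (map_div₀ j _ _))
    · rw [map_add, map_intCast, map_mul, map_natCast, map_add, map_intCast] at b
      exact (Ideal.add_mem_iff_left _ (m _)).1 b
    · rw [← map_sub, map_add s, map_intCast, map_mul s, map_natCast, add_sub_add_left_eq_sub, ← mul_sub]
      exact m _

/-- extension of the symbol to all ideals -/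
theorem ex_f (hU : Upm K) {N c : ℕ} {lam : 𝓞 K → ZMod N} (hl : Lm s c lam)
    {b : ClassGroup (𝓞 K) → (Ideal (𝓞 K))⁰} (b1 : b 1 = 1) (hb : ∀ x, ClassGroup.mk0 (b x) = x⁻¹)
    (h : ∀ x y, lam (gn (b x * b y * b (x * y)⁻¹ : (Ideal (𝓞 K))⁰)) = 0) :
    ∃ f : Ideal (𝓞 K) → ZMod N, (∀ I I', I ≠ ⊥ → I' ≠ ⊥ → f (I * I') = f I + f I') ∧
      (∀ a ≠ 0, f (Ideal.span {a}) = lam a) ∧
      ∀ I ≠ ⊥, ∃ x, ∃ β ≠ 0, I * (b x : Ideal (𝓞 K)) = Ideal.span {β} ∧ f I = lam β := by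
  classical
  have cg {a a' : 𝓞 K} (a0 : a ≠ 0) (e : Ideal.span {a} = Ideal.span {a'}) : lam a' = lam a := by
    obtain ⟨u, rfl⟩ := Ideal.span_singleton_eq_span_singleton.1 e
    rcases hU u with rfl | rfl
    · simp
    · simpa using hl.neg a a0
  have k := ex_add ClassGroup.mk0 b b1 hb (fun I => lam (gn I)) (fun I I' e e' => by
    rw [← hl.add _ _ (gn_ne e) (gn_ne e')]
    refine cg (mul_ne_zero (gn_ne e) (gn_ne e')) ?_
    rw [← Ideal.span_singleton_mul_span_singleton, ← gn_sp e, ← gn_sp e',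
      ← gn_sp (by rw [map_mul, e, e', mul_one]), Submonoid.coe_mul])
    fun x y z e => by rw [eq_inv_of_mul_eq_one_right e]; exact h x y
  have k1 (I : (Ideal (𝓞 K))⁰) : ClassGroup.mk0 (I * b (ClassGroup.mk0 I)) = 1 := by
    rw [map_mul, hb, mul_inv_cancel]
  refine ⟨fun I => if h : I ∈ (Ideal (𝓞 K))⁰ then
    lam (gn ((⟨I, h⟩ : (Ideal (𝓞 K))⁰) * b (ClassGroup.mk0 ⟨I, h⟩) : (Ideal (𝓞 K))⁰)) else 0,
    fun I I' e e' => ?_, fun a a0 => ?_, fun I e => ?_⟩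
  · have m := mem_nonZeroDivisors_of_ne_zero e
    have m' := mem_nonZeroDivisors_of_ne_zero e'
    simp only [dif_pos m, dif_pos m', dif_pos (mul_mem m m')]
    exact k ⟨I, m⟩ ⟨I', m'⟩
  · have m := mem_nonZeroDivisors_of_ne_zero (mt Ideal.span_singleton_eq_bot.1 a0 : Ideal.span {a} ≠ ⊥)
    have e := (ClassGroup.mk0_eq_one_iff m).2 ⟨a, rfl⟩
    simp only [dif_pos m, e, b1, mul_one]
    exact cg a0 (gn_sp e)
  · have m := mem_nonZeroDivisors_of_ne_zero e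
    exact ⟨_, _, gn_ne (k1 ⟨I, m⟩), gn_sp (k1 ⟨I, m⟩), dif_pos m⟩

/-- a number whose symbol is a unit -/
theorem ex_beta (kd : Kd j δ) (q : Qd (JJ j) ω s) (hθ : θ ^ 2 = -(δ : 𝓞 K))
    (hζ : IsPrimitiveRoot ζ (pp ^ (n + 1))) (o : Ov l P) (hδ : J(-δ | l) = 1) (hg : g ∈ GK j)
    (f : Fb l P g) (md : l % pp ^ (n + 1) = 1) : ∃ (β : 𝓞 K) (m : ℤ), β ≠ 0 ∧ β * s β = m ∧
      IsCoprime m (l : ℤ) ∧ ∀ k : ZMod (pp ^ (n + 1)), Km ζ g (j (qu s β)) k → IsUnit k := by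
  have hl := o.1
  have := Fact.mk hl
  have := o.2.1
  have := NeZero.mk pp_ne
  have l2 := ne_two_of md
  have d0 := Nat.pos_of_ne_zero kd.sq.ne_zero
  have z2 : (2 : ZMod l) ≠ 0 := Ring.two_ne_zero (by rwa [ZMod.ringChar_zmod_n])
  have md1 : l % pp = 1 := by simpa using mod_of (a := 0) md (by omega)
  have cast (a : ℤ) : (a : 𝓞 Qb) ∈ P ↔ (a : ZMod l) = 0 := by
    rw [ZMod.intCast_zmod_eq_zero_iff_dvd]
    exact ⟨ov_dvd o, fun ⟨c, e⟩ => by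
      rw [e, Int.cast_mul, Int.cast_natCast]; exact P.mul_mem_right _ o.2.2⟩
  obtain ⟨t, ht, tθ⟩ : ∃ t : ℤ, (t : ZMod l) * t = -δ ∧ iz j θ - t ∈ P := by
    obtain ⟨t, ht⟩ := ZMod.isSquare_of_jacobiSym_eq_one hδ
    obtain ⟨t, rfl⟩ := ZMod.intCast_surjective t
    push_cast at ht
    have m : (iz j θ - t) * (iz j θ - (-t : ℤ)) ∈ P := by
      have := (cast (-(t * t + δ))).2 (by push_cast; linear_combination ht)
      convert this using 1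
      have e := congrArg (iz j) hθ
      rw [map_pow, map_neg, map_natCast] at e
      push_cast
      linear_combination e
    exact (o.2.1.mem_or_mem m).elim (fun a => ⟨t, ht.symm, a⟩)
      fun a => ⟨-t, by push_cast; linear_combination -ht, a⟩
  have t0 : (t : ZMod l) ≠ 0 := fun a => by
    rw [a, zero_mul, eq_comm, ← Int.cast_natCast, ← Int.cast_neg,
      ZMod.intCast_zmod_eq_zero_iff_dvd] at ht
    rw [jacobiSym.mod_left, Int.emod_eq_zero_of_dvd ht, jacobiSym.zero_left hl.one_lt] at hδ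
    exact zero_ne_one hδ
  obtain ⟨r', hr'⟩ := IsCyclic.exists_ofOrder_eq_natCard (α := (ZMod l)ˣ)
  rw [Nat.card_eq_fintype_card, ZMod.card_units] at hr'
  obtain ⟨r, hr⟩ := ZMod.intCast_surjective (r' : ZMod l)
  have r0 : (r : ZMod l) ≠ 0 := hr ▸ r'.ne_zero
  obtain ⟨x, hx⟩ := ZMod.intCast_surjective (((r : ZMod l) + 1) / 2)
  obtain ⟨y, hy⟩ := ZMod.intCast_surjective (((r : ZMod l) - 1) / (2 * (t : ZMod l)))
  have c1 : ((x + y * t - r : ℤ) : ZMod l) = 0 := by push_cast; rw [hx, hy]; field_simp; ring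
  have c2 : ((x - y * t - 1 : ℤ) : ZMod l) = 0 := by push_cast; rw [hx, hy]; field_simp; ring
  have sβ : s (x + y * θ) = x - y * θ := by
    rw [map_add, map_mul, map_intCast, map_intCast, s_th q d0 hθ]; ring
  have b1 : ((x : 𝓞 K) + y * θ) * s (x + y * θ) = (x ^ 2 + δ * y ^ 2 : ℤ) := by
    rw [sβ]; push_cast; linear_combination -(y : 𝓞 K) ^ 2 * hθ
  have m1 : ((x ^ 2 + δ * y ^ 2 : ℤ) : ZMod l) = r := by
    push_cast at c1 c2 ⊢
    linear_combination (x - y * t) * c1 + r * c2 + y ^ 2 * ht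
  have b0 : ((x : 𝓞 K) + y * θ) ≠ 0 := fun a => by
    rw [a, zero_mul, eq_comm, Int.cast_eq_zero] at b1
    exact r0 (by rw [← m1, b1]; simp)
  refine ⟨_, _, b0, b1, ((Nat.prime_iff_prime_int.1 hl).irreducible.coprime_iff_not_dvd.2
    fun d => r0 (m1 ▸ (ZMod.intCast_zmod_eq_zero_iff_dvd _ l).2 d)).symm, fun k hk => ?_⟩
  have p1 : iz j (x + y * θ) - r ∈ P := by
    have := P.add_mem ((cast _).2 c1) (P.mul_mem_left (y : 𝓞 Qb) tθ)
    convert this using 1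
    simp only [map_add, map_mul, map_intCast]
    push_cast
    ring
  have p2 : iz j (s (x + y * θ)) - 1 ∈ P := by
    have := P.sub_mem ((cast _).2 c2) (P.mul_mem_left (y : 𝓞 Qb) tθ)
    convert this using 1
    simp only [sβ, map_sub, map_mul, map_intCast]
    push_cast
    ring
  generalize (x : 𝓞 K) + y * θ = β at b0 hk p1 p2
  have rP : ((r : ℤ) : 𝓞 Qb) ∉ P := mt (cast r).1 r0
  have r1 : (r : Qb) ≠ 0 := Int.cast_ne_zero.2 fun a => r0 (by rw [a]; simp)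
  have sP : iz j (s β) ∉ P := fun a => Mu.one_nm o (by simpa using P.sub_mem a p2)
  obtain ⟨w, hw⟩ := rt pp (j β / (r * j (s β)))
  obtain ⟨z, hz⟩ := rt pp (r : Qb)
  have a1 : j β ≠ 0 := (map_ne_zero j).2 fun c => b0 (RingOfIntegers.ext c)
  have a2 : j (s β) ≠ 0 := (map_ne_zero j).2 (s_ne q b0)
  have w0 := rt_ne hw (div_ne_zero a1 (mul_ne_zero r1 a2))
  have w1 := fix_quo o f md1 (a := iz j β) (b := r * iz j (s β)) (y := w) (hg _)
    (by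
      rw [RingOfIntegers.coe_eq_algebraMap, map_mul, map_mul, map_intCast, map_intCast]
      exact congrArg (_ * ·) (hg _))
    (fun a => (o.2.1.mem_or_mem a).elim rP sP)
    (by
      have := P.sub_mem p1 (P.mul_mem_left (r : 𝓞 Qb) p2)
      convert this using 1
      ring) (by simpa using hw)
  refine km_unit hζ (fx_one o f md) (qu_ne q b0) hk (z := z * w) ?_ fun d => ?_
  · rw [mul_pow, hz, hw, qu, map_div₀]
    field_simp
  rw [map_mul, w1] at d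
  obtain ⟨z, rfl, e⟩ := ex_int pp_ne (w := r) (y := z) (by simpa using hz)
  have h1 := P.neg_mem (f z)
  obtain ⟨m, hm⟩ : ∃ m, l = pp * m + 1 := ⟨l / pp, by rw [← md1, Nat.div_add_mod]⟩
  have z0 : z ∉ P := fun k => rP (e ▸ P.pow_mem_of_mem k _ pp_pos)
  rw [show g • z = z from RingOfIntegers.ext (mul_right_cancel₀ w0 d), neg_sub,
    show z ^ l = z ^ (pp * m + 1) from congrArg _ hm, pow_succ, pow_mul, e, ← sub_one_mul] at h1
  have h2 := (cast (r ^ m - 1)).1 (by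
    push_cast; exact (o.2.1.mem_or_mem h1).resolve_right z0)
  have h3 : r' ^ m = 1 := Units.ext (by push_cast at h2 ⊢; rw [← hr]; exact sub_eq_zero.1 h2)
  have h4 := orderOf_dvd_of_pow_eq_one h3
  have m0 : 0 < m := Nat.pos_of_ne_zero fun a => by
    rw [a] at hm
    exact hl.one_lt.ne' (by simpa using hm)
  rw [hr', hm, Nat.add_sub_cancel] at h4
  have := Nat.le_of_dvd m0 h4
  have := one_lt
  nlinarith

/-- the character -/
theorem ex_chi (h2 : RC2) (h3 : RC3) (kd : Kd j δ) (q : Qd (JJ j) ω s)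
    (hθ : θ ^ 2 = -(δ : 𝓞 K)) {r : ClassGroup (𝓞 K) → (Ideal (𝓞 K))⁰} (r1 : r 1 = 1)
    (hr : ∀ x, ClassGroup.mk0 (r x) = x⁻¹) (hζ : IsPrimitiveRoot ζ (pp ^ (n + 1))) (o : Ov l P)
    (nδ : ¬ (l : ℤ) ∣ -δ) (hg : g ∈ GK j) (f : Fb l P g) (md : l % pp ^ (n + 1) = 1)
    (hA : ∀ x y, Km ζ g (j (qu s (gn (K := K) (r x * r y * r (x * y)⁻¹ : (Ideal (𝓞 K))⁰))))
      (0 : ZMod (pp ^ (n + 1)))) :
    ∃ e : GQ → ZMod (pp ^ (n + 1)), (∀ x ∈ GK j, ∀ y ∈ GK j, e (x * y) = e x + e y) ∧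
      (∀ x ∈ Hc j l, e x = 0) ∧ (∀ Q', Ov l Q' → ∃ τ, Inert Q' τ ∧ e τ = 1) ∧
      ∀ p Q φ β y v, Ov p Q → p ≠ l → φ ∈ GK j → Fb p Q φ → β ≠ 0 →
        below j Q * (r y : Ideal (𝓞 K)) = Ideal.span {β} → Km ζ g (j (qu s β)) v → e φ = v := by
  have hl := o.1
  have l2 := ne_two_of md
  have tr (x y) : ClassGroup.mk0 (r x * r y * r (x * y)⁻¹) = 1 := by
    rw [map_mul, map_mul, hr, hr, hr, ← mul_inv, ← mul_inv, mul_inv_cancel, inv_one]
  obtain ⟨lam, hm, z⟩ := lam1 q hζ o hg f md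
  obtain ⟨F, f1, f2, f3⟩ := ex_f kd.upm hm r1 hr fun x y =>
    km_uq hζ (qu_ne q (gn_ne (tr x y))) (z _ (gn_ne (tr x y))) (hA x y)
  obtain ⟨e, add, ker, he⟩ := ex_e (j := j) h2 kd.iq (c := l) hl.pos f1 fun x a h => by
    have a0 := mt Ideal.span_singleton_eq_bot.2 h.1
    rw [f2 _ a0, hm.rc x a a0 (q.cop_int h)]
  refine ⟨e, add, ker, fun Q' o' => ?_, fun p Q φ β y v op ne m fp β0 e1 e2 => ?_⟩
  · have hδ : J(-δ | l) = 1 := (ch_fb o f l2 nδ).symm.trans (if_pos ((kd.gk _).1 hg))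
    obtain ⟨β, m, b0, b1, m5, un⟩ := ex_beta kd q hθ hζ o hδ hg f md
    obtain ⟨τ, i1, i2⟩ := (h3 K j kd.iq kd.upm).2 l _ (typ' kd q hθ hl l2 hδ) Q' o'.2.1 o'.2.2
    obtain ⟨g1, -, g3⟩ := i2 1 one_pos hl.not_dvd_one
    have cp := cop_nm (c := l) b0 b1 m5
    obtain ⟨x, hx⟩ := (h2 K j kd.iq _ hl.pos).1 _ cp
    obtain ⟨-, -, -, -, r5, r6, -⟩ := h2 K j kd.iq 1 one_pos
    have cp' : Cop (1 * l) (Ideal.span {β}) := by rwa [one_mul]
    obtain ⟨i, hi⟩ := g3 x ((r5 _ x (cop_dvd cp') (r6 l _ x hl.pos cp' (by rwa [one_mul]))).2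
      ⟨0, β, by simp⟩)
    rw [one_mul] at hi
    have pw (i : ℕ) : e (τ ^ i) = i * e τ := by
      induction i with
      | zero => simpa using ker 1 (one_mem _)
      | succ i ih => rw [pow_succ τ, add _ (pow_mem g1.1 i) _ g1.1, ih, Nat.cast_succ, add_mul, one_mul]
    have e1 := add x hx.1 _ hi.1
    rw [ker _ hi, add_zero, mul_inv_cancel_left, pw, he _ _ cp hx, f2 _ b0] at e1
    obtain ⟨u, hu⟩ := (isUnit_of_mul_isUnit_right (e1 ▸ un _ (z β b0))).exists_left_inv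
    exact ⟨τ ^ u.val, (P022.H443.inP Q').pow_mem i1 _, by rw [pw, ZMod.natCast_zmod_val, hu]⟩
  · have pl : ¬ p ∣ l := fun a => ne ((Nat.prime_dvd_prime_iff_eq op.1 hl).1 a)
    have lm : (p : 𝓞 K) ∈ below j Q := by rw [mem_below, map_natCast]; exact op.2.2
    have nb := norm_below kd.iq op fp m
    have ar := (h2 K j kd.iq l hl.pos).2.2.2.2.2.2 Q op.2.1
      (fun a => op.1.ne_zero (by simpa [a] using op.2.2))
      (fun a => pl (Int.natCast_dvd_natCast.1 (ov_dvd op (by simpa using a)))) _ m 1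
      (by simpa only [nb, pow_one, Fb] using fp)
    obtain ⟨u, w, uv⟩ := Nat.isCoprime_iff_coprime.2 ((Nat.Prime.coprime_iff_not_dvd op.1).2 pl)
    rw [pow_one] at ar
    have I0 : below j Q ≠ ⊥ := fun a => op.1.ne_zero (by simpa [a] using lm)
    rw [he _ _ (cop_of I0 (Ideal.mul_mem_left _ (u : 𝓞 K) lm) (b := w)
      (by rw [mul_comm (l : 𝓞 K)]; exact_mod_cast congrArg (Int.cast : ℤ → 𝓞 K) uv)) ar]
    obtain ⟨y', γ, γ0, a1, a2⟩ := f3 _ I0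
    have cl {y γ} (a : below j Q * (r y : Ideal (𝓞 K)) = Ideal.span {γ}) :
        ClassGroup.mk0 ⟨_, mem_nonZeroDivisors_of_ne_zero I0⟩ = y := by
      have a3 : ClassGroup.mk0 (⟨_, mem_nonZeroDivisors_of_ne_zero I0⟩ * r y) = 1 :=
        (ClassGroup.mk0_eq_one_iff _).2 ⟨γ, a⟩
      rwa [map_mul, hr, mul_inv_eq_one] at a3
    rw [a2, ← f2 _ γ0, ← a1, ← cl a1, cl e1, e1, f2 _ β0]
    exact km_uq hζ (qu_ne q β0) (z _ β0) e2

/-- **one more prime** -/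
theorem pert (h2 : RC2) (h3 : RC3) (kd : Kd j δ) {S : Finset ℕ} {P : ℕ → Ideal (𝓞 Qb)} {φ : ℕ → GQ}
    (hS : ∀ p ∈ S, Ov p (P p) ∧ dec (P p) ≤ GK j ∧ Fb p (P p) (φ p)) (S2 : pp ∈ S)
    {U : Subgroup GQ} {G : GQ → Prop} {N : ℕ} (nz : Nz j U G N) (n : ℕ)
    (b : ℕ → ZMod (pp ^ (n + 1))) (b2 : b pp = 0) : ∃ g ∈ GK j,
    ∀ τ ∈ GK j, ∀ c, IsConj c → c ∉ GK j → (∀ i, Fx {1} (pp ^ i) τ) →
    ∀ t ∈ GK j, t = τ * (c * τ * c⁻¹)⁻¹ → t ∈ U →
    ∀ (W : Subgroup GQ) (T : Finset ℕ), IsOpen (W : Set GQ) →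
    ∃ (q : ℕ) (Q : Ideal (𝓞 Qb)) (ψ : GQ) (e : GQ → ZMod (pp ^ (n + 1))), q ∉ T ∧ Ov q Q ∧
      ψ ∈ GK j ∧ Fb q Q ψ ∧ q % pp ^ (n + 3) = 1 ∧ Typ K q (q - 1) ∧ (g * t)⁻¹ * ψ ∈ W ∧ G ψ ∧
      (∀ x ∈ GK j, ∀ y ∈ GK j, e (x * y) = e x + e y) ∧ (∀ x ∈ Hc j q, e x = 0) ∧
      (∀ Q', Ov q Q' → ∃ τ, Inert Q' τ ∧ e τ = 1) ∧ ∀ p ∈ S, e (φ p) = N * b p := by
  classical
  obtain ⟨ω, s, q⟩ := ex_q j kd.iq
  obtain ⟨θ, hθ⟩ : ∃ θ : 𝓞 K, θ ^ 2 = -(δ : 𝓞 K) := by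
    obtain ⟨θ, e⟩ := kd.rt
    refine ⟨⟨θ, IsIntegral.of_pow two_pos (e ▸ (isIntegral_natCast δ).neg)⟩, RingOfIntegers.ext ?_⟩
    exact (map_pow (algebraMap (𝓞 K) K) _ 2).trans (e.trans (by simp))
  obtain ⟨r, β, x, r1, hr, hβ, hα⟩ := ex_dat kd q hS one_pos
  obtain ⟨ζ, hζ⟩ := HasEnoughRootsOfUnity.exists_primitiveRoot Qb (pp ^ (n + 1))
  obtain ⟨ξ, hξ⟩ := HasEnoughRootsOfUnity.exists_primitiveRoot Qb (pp ^ (n + 3))
  obtain ⟨g, g1, g2, g3, g4⟩ := ex_g kd q hθ hζ (P := P) (β := β) (x := x) b (S.erase pp) fun p m =>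
    have m' := Finset.mem_of_mem_erase m
    ⟨(hS p m').1, Finset.ne_of_mem_erase m, (hS p m').2.1, (hβ p m').2.2.2.1, fun l a =>
      (hβ p m').2.2.2.2 l (hS l (Finset.mem_of_mem_erase a)).1.1 (.inr (Finset.mem_of_mem_erase a))⟩
  have nd (l : ℕ) (hl : l.Prime) (d : l ∈ S) (p) (m : p ∈ S) (ne : l ≠ p) :
      ¬ (l : ℤ) ∣ p * x p := fun a => ((Nat.prime_iff_prime_int.1 hl).dvd_or_dvd a).elim
    (fun a => ne ((Nat.prime_dvd_prime_iff_eq hl (hS p m).1.1).1 (Int.natCast_dvd_natCast.1 a)))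
    ((hβ p m).2.2.2.2 l hl (.inr d))
  have g5 (p) (m : p ∈ S) : Km ζ g (j (qu s (β p))) (b p) := by
    by_cases p2 : p = pp
    · subst p2
      exact b2 ▸ g3 _ _ (hβ pp m).2.2.2.1 fun l a => nd l (hS l (Finset.mem_of_mem_erase a)).1.1
        (Finset.mem_of_mem_erase a) pp m (Finset.ne_of_mem_erase a)
    · exact g4 p (Finset.mem_erase.2 ⟨p2, m⟩)
  obtain ⟨h, k1, k2, k3⟩ := nz.ex
  obtain ⟨k, hk⟩ := k3 g g2
  have k4 (i) : Fx {1} (pp ^ i) (h ^ k) := fx_pow (fun y hy => k2 i y ⟨1, by simp, by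
    rw [map_one]; exact hy.symm⟩) k
  refine ⟨g ^ N * h ^ k, mul_mem (pow_mem g1 N) (pow_mem k1 k),
    fun τ τ1 c c1 c2 τ2 t t1 t2 t3 W T hW => ?_⟩
  have t4 (i) : Fx {1} (pp ^ i) t := t2 ▸ fx_mul (τ2 i) (fx_inv (fx_cj (τ2 i) c))
  have key (a : 𝓞 K) (a0 : a ≠ 0) (v : ZMod (pp ^ (n + 1))) (e4 : Km ζ g (j (qu s a)) v) :
      Km ζ (g ^ N * h ^ k * t) (j (qu s a)) ((N : ZMod (pp ^ (n + 1))) * v) := by
    obtain ⟨w, hw⟩ := km_ex hζ (τ2 _) (qu_ne q a0) (τ1 _)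
    simpa using km_comp hζ (fx_mul (fx_pow (g2 _) N) (k4 _)) (km_comp hζ (fx_pow (g2 _) N)
      (km_pow hζ (g2 _) e4 N)
      (km_zero (ζ := ζ) (g := h ^ k) fun z hz => fx_pow (k2 (n + 1)) k z
        ⟨_, (map_ne_zero j).1 (qu_ne q a0), hz.symm⟩))
      (km_zero (ζ := ζ) (g := t) fun z hz => t2 ▸ km_cj hζ c1 (qu_ne q a0) (by
        rw [qu, map_div₀, map_div₀, cj_out q c2, cj_out q c2, q.ss, inv_div]) hw hz)
  choose rt hrt using fun u : Qb => Xt.rt (pp ^ (n + 1)) u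
  obtain ⟨A, A2, A3⟩ : ∃ A : Finset (𝓞 K), (∀ p ∈ S, β p ∈ A) ∧ ∀ x y,
      gn (K := K) (r x * r y * r (x * y)⁻¹ : (Ideal (𝓞 K))⁰) ∈ A :=
    ⟨S.image β ∪ Finset.univ.image fun t : ClassGroup (𝓞 K) × ClassGroup (𝓞 K) =>
      gn (K := K) (r t.1 * r t.2 * r (t.1 * t.2)⁻¹ : (Ideal (𝓞 K))⁰),
      fun p m => Finset.mem_union_left _ (Finset.mem_image_of_mem _ m),
      fun x y => Finset.mem_union_right _ (Finset.mem_image.2 ⟨(x, y), Finset.mem_univ _, rfl⟩)⟩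
  have hG : GK j = P004S.kn (-(δ : ℤ)) := Subgroup.ext kd.gk
  have u1 := mul_mem (mul_mem (pow_mem g1 N) (pow_mem k1 k)) t1
  have u2 := fun i => fx_mul (fx_mul (fx_pow (g2 i) N) (k4 i)) (t4 i)
  have u3 := nz.stb _ _ t3 hk
  generalize g ^ N * h ^ k * t = u at key u1 u2 u3 ⊢
  obtain ⟨l, ψ, Q, hT, o, f, ⟨⟨m1, m2⟩, m3⟩, m4⟩ := cheb u (W := W ⊓ U ⊓ P004S.kn (-(δ : ℤ)))
    ((hW.inter nz.opn).inter (P004S.kn_open _)) (insert ξ (A.image fun a => rt (j (qu s a))))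
    (T ∪ S ∪ δ.primeFactors)
  simp only [Finset.mem_union, not_or] at hT
  have hl := o.1
  have lp : l ≠ pp := fun e => hT.1.2 (e ▸ S2)
  have hψ : ψ ∈ GK j := mul_inv_cancel_left u ψ ▸ mul_mem u1 (hG ▸ m3 : u⁻¹ * ψ ∈ GK j)
  have nδ : ¬ (l : ℤ) ∣ -δ := fun a => hT.2 (Nat.mem_primeFactors.2
    ⟨hl, Int.natCast_dvd_natCast.1 (dvd_neg.1 a), kd.sq.ne_zero⟩)
  have md : l % pp ^ (n + 3) = 1 := mod_one o f (nd_pp o lp _) (one_lt_pow' _) hξ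
    ((m4 ξ (Finset.mem_insert_self _ _)).trans (u2 _ ξ hξ.pow_eq_one))
  have md' : l % pp ^ (n + 1) = 1 := mod_of md (by omega)
  have l2 := ne_two_of md'
  have val (a : 𝓞 K) (a0 : a ≠ 0) (v : ZMod (pp ^ (n + 1))) (m : a ∈ A)
      (e : Km ζ u (j (qu s a)) v) : Km ζ ψ (j (qu s a)) v :=
    km_of (fx_one o f md') (qu_ne q a0) (hrt _) ((m4 _ (Finset.mem_insert_of_mem
      (Finset.mem_image.2 ⟨a, m, rfl⟩))).trans (e _ (hrt _)))
  obtain ⟨e, add, ker, rm, he⟩ := ex_chi h2 h3 kd q hθ r1 hr hζ o nδ hψ f md'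
    fun x y => by
      obtain ⟨a0, w, a1, a2⟩ := hα x y
      exact val _ a0 _ (A3 x y) (by simpa using (key _ a0 _ (g3 _ w a1 fun l a =>
          a2 l (hS l (Finset.mem_of_mem_erase a)).1.1 (.inr (Finset.mem_of_mem_erase a)))))
  exact ⟨l, Q, ψ, e, hT.1.1, o, hψ, f, md, typ' kd q hθ hl l2 ((ch_fb o f l2 nδ).symm.trans
    (if_pos ((kd.gk _).1 hψ))), m1, mul_inv_cancel_left u ψ ▸ nz.stb _ _ m2 u3,
    add, ker, rm, fun p m =>
      let ⟨a, b0, ⟨_, b1⟩, _⟩ := hβ p m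
      he p _ _ _ _ _ (hS p m).1 (fun a => hT.1.2 (a ▸ m)) a (hS p m).2.2 b0 b1 (val _ b0 _ (A2 p m)
        (key _ b0 _ (g5 p m)))⟩

end Vale.Agent.P014Y.F.Pt
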